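import Mathlib.Analysis.VonNeumannAlgebra.Basic
import Mathlib.Analysis.InnerProductSpace.Adjoint
import Mathlib.Topology.Algebra.InfiniteSum.Basic

open scoped InnerProductSpace

namespace Vale.Agent.P096.H468

variable {H : Type*} [NormedAddCommGroup H] [InnerProductSpace ℂ H] [CompleteSpace H]

/-- The closed operator-norm unit ball of a von Neumann algebra. -/
def unitBall (M : VonNeumannAlgebra H) : Set (H →L[ℂ] H) := {x | x ∈ M ∧ ‖x‖ ≤ 1}

/-- The Kadison-Kastler distance. -/
noncomputable def kkDist (M N : VonNeumannAlgebra H) : ℝ :=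
  max (⨆ x : unitBall M, ⨅ y : unitBall N, ‖(x : H →L[ℂ] H) - (y : H →L[ℂ] H)‖)
    (⨆ y : unitBall N, ⨅ x : unitBall M, ‖(x : H →L[ℂ] H) - (y : H →L[ℂ] H)‖)

/-- The normal positive functional `x ↦ ∑ ⟨ξₙ, x ξₙ⟩` of a square summable sequence of vectors. -/
noncomputable def vecFun (ξ : ℕ → H) (x : H →L[ℂ] H) : ℂ := ∑' n, ⟪ξ n, x (ξ n)⟫_ℂ

/-- The functional of `ξ` is a faithful normal positive functional on `P`, and `N` is contained
in its centralizer. -/
structure Centralized (P N : VonNeumannAlgebra H) (ξ : ℕ → H) : Prop where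
  summable : Summable fun n => ‖ξ n‖ ^ 2
  faithful : ∀ x ∈ P, vecFun ξ (star x * x) = 0 → x = 0
  central : ∀ x ∈ P, ∀ y ∈ N, vecFun ξ (x * y) = vecFun ξ (y * x)

end Vale.Agent.P096.H468
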